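import Mathlib
import Vale.Agent.Lib.P137.TVDefs

/-!
# P137 pool (helper20, second copy of job L2): lower bound for the total variation of a
radially nonincreasing function

`tv_lower_of_field`: given the test fields of job L1 (hypothesis `hfield`), for every antitone
`F ≥ 0` with `x ↦ F ‖x‖` integrable on `R^d`, `d ≥ 2`,
`(d - 1) ∫ F(|x|) / |x| dx ≤ totalVar (x ↦ F ‖x‖)`.
-/

namespace Vale.Agent.Lib.P137.H20

open MeasureTheory Filter Topology
open Vale.Agent.Lib.P137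

theorem continuous_divergence {d : ℕ} {φ : Sp d → Sp d} (hφ : ContDiff ℝ 1 φ) :
    Continuous (divergence φ) := by
  have h1 : Continuous (fderiv ℝ φ) := hφ.continuous_fderiv one_ne_zero
  unfold divergence
  refine continuous_finsetSum _ (fun i _ => ?_)
  have h2 : Continuous (fun x => fderiv ℝ φ x (EuclideanSpace.single i 1)) :=
    h1.clm_apply continuous_const
  exact (EuclideanSpace.proj i).continuous.comp h2

theorem hasCompactSupport_divergence {d : ℕ} {φ : Sp d → Sp d} (hφ : HasCompactSupport φ) :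
    HasCompactSupport (divergence φ) := by
  have h1 : HasCompactSupport (fderiv ℝ φ) := hφ.fderiv (𝕜 := ℝ)
  exact h1.comp_left
    (g := fun L : Sp d →L[ℝ] Sp d => ∑ i : Fin d, (L (EuclideanSpace.single i 1)) i) (by simp)

/-- One test field: the basic inequality. -/
theorem field_ineq {d : ℕ} (hd : 2 ≤ d) (F : ℝ → ℝ) (hF0 : ∀ t, 0 ≤ F t)
    (hint : Integrable (fun x : Sp d => F ‖x‖)) {M δ R c : ℝ} (hM : 0 ≤ M) (hc0 : 0 ≤ c)
    (φ : Sp d → Sp d) (h1 : ContDiff ℝ 1 φ) (h2 : HasCompactSupport φ) (h3 : ∀ x, ‖φ x‖ ≤ 1)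
    (h4 : ∀ x, ‖x‖ ≤ R → 0 ≤ divergence φ x)
    (h5 : ∀ x, δ ≤ ‖x‖ → ‖x‖ ≤ R → c * ((d : ℝ) - 1) * ‖x‖⁻¹ ≤ divergence φ x)
    (h6 : ∀ x, R < ‖x‖ → -M ≤ divergence φ x) :
    ENNReal.ofReal c * (((d - 1 : ℕ) : ENNReal) *
        ∫⁻ x in {x : Sp d | δ ≤ ‖x‖ ∧ ‖x‖ ≤ R}, ENNReal.ofReal (F ‖x‖) * ENNReal.ofReal ‖x‖⁻¹)
      ≤ totalVar (fun x : Sp d => F ‖x‖)
        + ENNReal.ofReal M * ∫⁻ x in {x : Sp d | R < ‖x‖}, ENNReal.ofReal (F ‖x‖) := by
  obtain ⟨g, hg⟩ : ∃ g : Sp d → ℝ, g = fun x => F ‖x‖ * divergence φ x := ⟨_, rfl⟩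
  have hgx : ∀ x, g x = F ‖x‖ * divergence φ x := fun x => by rw [hg]
  have hcont := continuous_divergence h1
  obtain ⟨B, hB⟩ := (hasCompactSupport_divergence h2).exists_bound_of_continuous hcont
  have hgint : Integrable g := by
    refine Integrable.mono' (hint.mul_const B)
      (by rw [hg]; exact hint.aestronglyMeasurable.mul hcont.aestronglyMeasurable)
      (Eventually.of_forall fun x => ?_)
    rw [hgx, norm_mul, Real.norm_eq_abs, abs_of_nonneg (hF0 _)]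
    exact mul_le_mul_of_nonneg_left (hB x) (hF0 _)
  have hT : ENNReal.ofReal (∫ x, g x) ≤ totalVar (fun x : Sp d => F ‖x‖) := by
    unfold totalVar
    rw [hg]
    exact le_iSup₂ (f := fun (φ : Sp d → Sp d)
      (_ : ContDiff ℝ 1 φ ∧ HasCompactSupport φ ∧ ∀ x, ‖φ x‖ ≤ 1) =>
        ENNReal.ofReal (∫ x, F ‖x‖ * divergence φ x)) φ ⟨h1, h2, h3⟩
  obtain ⟨P, hP⟩ : ∃ P : ENNReal, P = ∫⁻ x, ENNReal.ofReal (g x) := ⟨_, rfl⟩
  obtain ⟨Q, hQ⟩ : ∃ Q : ENNReal, Q = ∫⁻ x, ENNReal.ofReal (-g x) := ⟨_, rfl⟩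
  have hPfin : P ≠ ⊤ := by rw [hP]; exact hgint.lintegral_lt_top.ne
  have hQfin : Q ≠ ⊤ := by rw [hQ]; exact hgint.neg.lintegral_lt_top.ne
  have hPQ : ENNReal.ofReal (∫ x, g x) = P - Q := by
    rw [integral_eq_lintegral_pos_part_sub_lintegral_neg_part hgint, ← hP, ← hQ,
      ENNReal.ofReal_sub _ ENNReal.toReal_nonneg, ENNReal.ofReal_toReal hPfin,
      ENNReal.ofReal_toReal hQfin]
  have hP_le : P ≤ totalVar (fun x : Sp d => F ‖x‖) + Q := by
    calc P ≤ P - Q + Q := le_tsub_add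
      _ ≤ totalVar (fun x : Sp d => F ‖x‖) + Q := by
          rw [← hPQ]; exact add_le_add_left hT Q
  have hAmeas : MeasurableSet {x : Sp d | δ ≤ ‖x‖ ∧ ‖x‖ ≤ R} :=
    (measurableSet_le measurable_const measurable_norm).inter
      (measurableSet_le measurable_norm measurable_const)
  have hSmeas : MeasurableSet {x : Sp d | R < ‖x‖} :=
    measurableSet_lt measurable_const measurable_norm
  have hd1 : ((d - 1 : ℕ) : ℝ) = (d : ℝ) - 1 := by
    rw [Nat.cast_sub (by omega)]; simp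
  have hPlow : ENNReal.ofReal c * (((d - 1 : ℕ) : ENNReal) *
      ∫⁻ x in {x : Sp d | δ ≤ ‖x‖ ∧ ‖x‖ ≤ R}, ENNReal.ofReal (F ‖x‖) * ENNReal.ofReal ‖x‖⁻¹)
      ≤ P := by
    rw [← mul_assoc, ← lintegral_const_mul' _ _
      (ENNReal.mul_ne_top ENNReal.ofReal_ne_top (ENNReal.natCast_ne_top _))]
    calc ∫⁻ x in {x : Sp d | δ ≤ ‖x‖ ∧ ‖x‖ ≤ R}, ENNReal.ofReal c * ((d - 1 : ℕ) : ENNReal)
          * (ENNReal.ofReal (F ‖x‖) * ENNReal.ofReal ‖x‖⁻¹)
        ≤ ∫⁻ x in {x : Sp d | δ ≤ ‖x‖ ∧ ‖x‖ ≤ R}, ENNReal.ofReal (g x) := by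
          refine setLIntegral_mono' hAmeas (fun x hx => ?_)
          have h7 := h5 x hx.1 hx.2
          have e : ENNReal.ofReal c * ((d - 1 : ℕ) : ENNReal)
              * (ENNReal.ofReal (F ‖x‖) * ENNReal.ofReal ‖x‖⁻¹)
              = ENNReal.ofReal (F ‖x‖ * (c * ((d : ℝ) - 1) * ‖x‖⁻¹)) := by
            rw [ENNReal.ofReal_mul (hF0 _), ENNReal.ofReal_mul (mul_nonneg hc0 (by rw [← hd1]; positivity)),
              ENNReal.ofReal_mul hc0, ← hd1, ENNReal.ofReal_natCast]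
            ring
          rw [e, hgx]
          exact ENNReal.ofReal_le_ofReal (mul_le_mul_of_nonneg_left h7 (hF0 _))
      _ ≤ P := by rw [hP]; exact setLIntegral_le_lintegral _ _
  have hQup : Q ≤ ENNReal.ofReal M * ∫⁻ x in {x : Sp d | R < ‖x‖}, ENNReal.ofReal (F ‖x‖) := by
    rw [← lintegral_const_mul' _ _ ENNReal.ofReal_ne_top, ← lintegral_indicator hSmeas, hQ]
    refine lintegral_mono (fun x => ?_)
    by_cases hx : R < ‖x‖
    · rw [Set.indicator_of_mem (show x ∈ {x : Sp d | R < ‖x‖} from hx),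
        ← ENNReal.ofReal_mul hM]
      apply ENNReal.ofReal_le_ofReal
      have h7 := h6 x hx
      rw [hgx]
      nlinarith [hF0 ‖x‖]
    · rw [Set.indicator_of_notMem (show x ∉ {x : Sp d | R < ‖x‖} from hx)]
      have h7 := h4 x (not_lt.1 hx)
      have h8 : -g x ≤ 0 := by
        rw [hgx]
        have := mul_nonneg (hF0 ‖x‖) h7
        linarith
      rw [ENNReal.ofReal_eq_zero.2 h8]
  calc ENNReal.ofReal c * (((d - 1 : ℕ) : ENNReal) *
        ∫⁻ x in {x : Sp d | δ ≤ ‖x‖ ∧ ‖x‖ ≤ R}, ENNReal.ofReal (F ‖x‖) * ENNReal.ofReal ‖x‖⁻¹)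
      ≤ P := hPlow
    _ ≤ totalVar (fun x : Sp d => F ‖x‖) + Q := hP_le
    _ ≤ totalVar (fun x : Sp d => F ‖x‖)
        + ENNReal.ofReal M * ∫⁻ x in {x : Sp d | R < ‖x‖}, ENNReal.ofReal (F ‖x‖) :=
        add_le_add_right hQup _

/-- The lower bound for the total variation, from the test fields of job L1. -/
theorem tv_lower_of_field {d : ℕ} (hd : 2 ≤ d)
    (hfield : ∃ M : ℝ, 0 ≤ M ∧ ∀ (δ R c : ℝ), 0 < δ → 1 ≤ R → c < 1 →
      ∃ φ : Sp d → Sp d, ContDiff ℝ 1 φ ∧ HasCompactSupport φ ∧ (∀ x, ‖φ x‖ ≤ 1) ∧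
        (∀ x, ‖x‖ ≤ R → 0 ≤ divergence φ x) ∧
        (∀ x, δ ≤ ‖x‖ → ‖x‖ ≤ R → c * ((d : ℝ) - 1) * ‖x‖⁻¹ ≤ divergence φ x) ∧
        (∀ x, R < ‖x‖ → -M ≤ divergence φ x))
    (F : ℝ → ℝ) (hF0 : ∀ t, 0 ≤ F t)
    (hint : Integrable (fun x : Sp d => F ‖x‖)) :
    ((d - 1 : ℕ) : ENNReal) *
        ∫⁻ x : Sp d, ENNReal.ofReal (F ‖x‖) * ENNReal.ofReal ‖x‖⁻¹
      ≤ totalVar (fun x : Sp d => F ‖x‖) := by
  obtain ⟨M, hM, hfield⟩ := hfield
  obtain ⟨T, hT⟩ : ∃ T : ENNReal, T = totalVar (fun x : Sp d => F ‖x‖) := ⟨_, rfl⟩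
  rw [← hT]
  obtain ⟨w, hw⟩ : ∃ w : Sp d → ENNReal,
      w = fun x => ENNReal.ofReal (F ‖x‖) * ENNReal.ofReal ‖x‖⁻¹ := ⟨_, rfl⟩
  obtain ⟨A, hA⟩ : ∃ A : ℕ → Set (Sp d),
      A = fun n : ℕ => {x : Sp d | 1 / ((n : ℝ) + 1) ≤ ‖x‖ ∧ ‖x‖ ≤ (n : ℝ) + 1} := ⟨_, rfl⟩
  obtain ⟨S, hS⟩ : ∃ S : ℕ → Set (Sp d),
      S = fun n : ℕ => {x : Sp d | (n : ℝ) + 1 < ‖x‖} := ⟨_, rfl⟩
  have hAmem : ∀ n x, x ∈ A n ↔ 1 / ((n : ℝ) + 1) ≤ ‖x‖ ∧ ‖x‖ ≤ (n : ℝ) + 1 := by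
    intro n x; rw [hA]; rfl
  have hSmem : ∀ n x, x ∈ S n ↔ (n : ℝ) + 1 < ‖x‖ := by
    intro n x; rw [hS]; rfl
  have hAmeas : ∀ n, MeasurableSet (A n) := by
    intro n
    rw [hA]
    exact (measurableSet_le measurable_const measurable_norm).inter
      (measurableSet_le measurable_norm measurable_const)
  have hSmeas : ∀ n, MeasurableSet (S n) := by
    intro n
    rw [hS]
    exact measurableSet_lt measurable_const measurable_norm
  have hAmono : Monotone A := by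
    intro m n hmn x hx
    rw [hAmem] at hx ⊢
    have h1 : (m : ℝ) ≤ (n : ℝ) := by exact_mod_cast hmn
    have h2 : 1 / ((n : ℝ) + 1) ≤ 1 / ((m : ℝ) + 1) :=
      one_div_le_one_div_of_le (by positivity) (by linarith)
    exact ⟨h2.trans hx.1, hx.2.trans (by linarith)⟩
  have hSanti : Antitone S := by
    intro m n hmn x hx
    rw [hSmem] at hx ⊢
    have h1 : (m : ℝ) ≤ (n : ℝ) := by exact_mod_cast hmn
    linarith
  -- step (b): remove the constant c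
  have hb : ∀ n : ℕ, ((d - 1 : ℕ) : ENNReal) * ∫⁻ x in A n, w x
      ≤ T + ENNReal.ofReal M * ∫⁻ x in S n, ENNReal.ofReal (F ‖x‖) := by
    intro n
    apply ENNReal.le_of_forall_lt_one_mul_le
    intro a ha
    have hafin : a ≠ ⊤ := ne_top_of_lt ha
    have hc1 : a.toReal < 1 := by
      have := (ENNReal.toReal_lt_toReal hafin ENNReal.one_ne_top).2 ha
      simpa using this
    obtain ⟨φ, h1, h2, h3, h4, h5, h6⟩ := hfield (1 / ((n : ℝ) + 1)) ((n : ℝ) + 1) a.toReal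
      (by positivity) (by linarith [(Nat.cast_nonneg n : (0 : ℝ) ≤ n)]) hc1
    have h := field_ineq hd F hF0 hint hM ENNReal.toReal_nonneg φ h1 h2 h3 h4 h5 h6
    rw [ENNReal.ofReal_toReal hafin] at h
    rw [hT, hA, hS, hw]
    exact h
  -- the tails tend to zero
  have htail : Tendsto (fun n => ENNReal.ofReal M * ∫⁻ x in S n, ENNReal.ofReal (F ‖x‖))
      atTop (𝓝 0) := by
    obtain ⟨ν, hν⟩ : ∃ ν : Measure (Sp d),
        ν = volume.withDensity (fun x : Sp d => ENNReal.ofReal (F ‖x‖)) := ⟨_, rfl⟩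
    have hνS : ∀ n, ν (S n) = ∫⁻ x in S n, ENNReal.ofReal (F ‖x‖) := by
      intro n; rw [hν, withDensity_apply _ (hSmeas n)]
    have hfin : ν (S 0) ≠ ⊤ := by
      rw [hνS]
      exact ((setLIntegral_le_lintegral _ _).trans_lt hint.lintegral_lt_top).ne
    have hinter : ⋂ n, S n = ∅ := by
      ext x
      simp only [Set.mem_iInter, Set.mem_empty_iff_false, iff_false, not_forall]
      obtain ⟨n, hn⟩ := exists_nat_ge ‖x‖
      refine ⟨n, ?_⟩
      rw [hSmem]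
      linarith
    have h1 := tendsto_measure_iInter_atTop (μ := ν)
      (fun n => (hSmeas n).nullMeasurableSet) hSanti ⟨0, hfin⟩
    rw [hinter, measure_empty] at h1
    have h2 : Tendsto (fun n => ∫⁻ x in S n, ENNReal.ofReal (F ‖x‖)) atTop (𝓝 0) := by
      refine h1.congr (fun n => ?_)
      exact hνS n
    have h3 := ENNReal.Tendsto.const_mul (a := ENNReal.ofReal M) h2
      (Or.inr ENNReal.ofReal_ne_top)
    rwa [mul_zero] at h3
  -- each truncated integral is bounded by T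
  have hm : ∀ m : ℕ, ((d - 1 : ℕ) : ENNReal) * ∫⁻ x in A m, w x ≤ T := by
    intro m
    apply ENNReal.le_of_forall_pos_le_add
    intro ε hε _
    have h1 : ∀ᶠ n in atTop, ENNReal.ofReal M * ∫⁻ x in S n, ENNReal.ofReal (F ‖x‖)
        ≤ (ε : ENNReal) :=
      (ENNReal.tendsto_nhds_zero.1 htail) ε (by exact_mod_cast hε)
    obtain ⟨n, hn, hmn⟩ := (h1.and (eventually_ge_atTop m)).exists
    calc ((d - 1 : ℕ) : ENNReal) * ∫⁻ x in A m, w x
        ≤ ((d - 1 : ℕ) : ENNReal) * ∫⁻ x in A n, w x :=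
          mul_le_mul_right (lintegral_mono_set (hAmono hmn)) _
      _ ≤ T + ENNReal.ofReal M * ∫⁻ x in S n, ENNReal.ofReal (F ‖x‖) := hb n
      _ ≤ T + ε := add_le_add_right hn _
  -- monotone convergence
  have hunion : ∀ x : Sp d, x ≠ 0 → x ∈ ⋃ n, A n := by
    intro x hx
    have hpos : 0 < ‖x‖ := norm_pos_iff.2 hx
    obtain ⟨n1, hn1⟩ := exists_nat_ge ‖x‖
    obtain ⟨n2, hn2⟩ := exists_nat_ge (1 / ‖x‖)
    refine Set.mem_iUnion.2 ⟨max n1 n2, ?_⟩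
    rw [hAmem]
    have h1 : (n1 : ℝ) ≤ ((max n1 n2 : ℕ) : ℝ) := by exact_mod_cast le_max_left n1 n2
    have h2 : (n2 : ℝ) ≤ ((max n1 n2 : ℕ) : ℝ) := by exact_mod_cast le_max_right n1 n2
    refine ⟨?_, by linarith⟩
    rw [div_le_iff₀ (by positivity)]
    have h3 : 1 / ‖x‖ ≤ ((max n1 n2 : ℕ) : ℝ) + 1 := by linarith
    rw [div_le_iff₀ hpos] at h3
    linarith
  have hw0 : w 0 = 0 := by
    rw [hw]; simp
  have htotal : ∫⁻ x, w x = ∫⁻ x in ⋃ n, A n, w x := by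
    rw [← lintegral_indicator (MeasurableSet.iUnion hAmeas)]
    refine lintegral_congr (fun x => ?_)
    by_cases hx : x = 0
    · rw [hx]
      by_cases h0 : (0 : Sp d) ∈ ⋃ n, A n
      · rw [Set.indicator_of_mem h0]
      · rw [Set.indicator_of_notMem h0, hw0]
    · rw [Set.indicator_of_mem (hunion x hx)]
  have hgoal : ∫⁻ x : Sp d, ENNReal.ofReal (F ‖x‖) * ENNReal.ofReal ‖x‖⁻¹ = ∫⁻ x, w x := by
    rw [hw]
  rw [hgoal, htotal, setLIntegral_iUnion_of_directed w (directed_of_isDirected_le hAmono),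
    ENNReal.mul_iSup]
  exact iSup_le hm

end Vale.Agent.Lib.P137.H20
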